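import Crest.Agent.R57K.Defs

set_option autoImplicit false
set_option linter.unusedSectionVars false

namespace Crest.Agent.R57K

open Finset Crest.Agent.R57

variable {V : Type*} [Fintype V] [DecidableEq V]

lemma G_single_antisymm {A : V → Finset V} (hA : Ori A) {x y : V} (h1 : y ∈ G A {x})
    (h2 : x ∈ G A {y}) : x = y := by
  rcases mem_G_single.1 h1 with h | h
  · exact h.symm
  · rcases mem_G_single.1 h2 with h' | h'
    · exact h'
    · exact absurd h' (hA.2 x y h)

lemma card_eq_sum_ite (S : Finset V) : (S.card : ℝ) = ∑ z, if z ∈ S then (1 : ℝ) else 0 := by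
  simp

lemma sum_sum_one_add : (∑ x : V, ∑ z : V, ((1 : ℝ) + if x = z then 1 else 0))
    = (Fintype.card V : ℝ) ^ 2 + Fintype.card V := by
  simp [Finset.sum_add_distrib]
  ring

theorem exists_min_adm {A : V → Finset V} (hA : Ori A) :
    ∃ T, Adm A T ∧ ∀ T', Adm A T' → oo A T ≤ oo A T' := by
  classical
  have h0 : Adm A (fun x => G A {x}) :=
    ⟨fun _ => Subset.rfl, fun x y h1 h2 => G_single_antisymm hA h1 h2⟩
  obtain ⟨T, hT, hmin⟩ := (univ.filter (fun T : V → Finset V => Adm A T)).exists_min_image (oo A)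
    ⟨_, mem_filter.2 ⟨mem_univ _, h0⟩⟩
  exact ⟨T, (mem_filter.1 hT).2, fun T' hT' => hmin T' (mem_filter.2 ⟨mem_univ _, hT'⟩)⟩

theorem hall_of_min {A T : V → Finset V} (hT : Adm A T)
    (hmin : ∀ T', Adm A T' → oo A T ≤ oo A T') (x : V) (Z : Finset V) (hZ : Z ⊆ Nn T x) :
    (Z.card : ℝ) ≤ rho A T x Z := by
  let T' : V → Finset V := fun v => if v = x then T x ∪ Z else T v
  have hx : T' x = T x ∪ Z := by simp [T']
  have hne : ∀ v, v ≠ x → T' v = T v := fun v hv => by simp [T', hv]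
  have hadm : Adm A T' := by
    refine ⟨fun v => ?_, fun a y h1 h2 => ?_⟩
    · by_cases hv : v = x
      · subst hv; rw [hx]; exact (hT.1 v).trans subset_union_left
      · rw [hne v hv]; exact hT.1 v
    · by_cases ha : a = x
      · by_cases hy : y = x
        · rw [ha, hy]
        · subst ha
          rw [hx] at h1; rw [hne y hy] at h2
          rcases mem_union.1 h1 with h | h
          · exact hT.2 _ _ h h2
          · exact absurd h2 (mem_Nn.1 (hZ h)).2
      · by_cases hy : y = x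
        · subst hy
          rw [hx] at h2; rw [hne a ha] at h1
          rcases mem_union.1 h2 with h | h
          · exact hT.2 _ _ h1 h
          · exact absurd h1 (mem_Nn.1 (hZ h)).2
        · rw [hne a ha] at h1; rw [hne y hy] at h2
          exact hT.2 _ _ h1 h2
  have h := hmin T' hadm
  unfold oo at h
  rw [← Finset.add_sum_erase univ _ (mem_univ x), ← Finset.add_sum_erase univ _ (mem_univ x)] at h
  have hs : ∑ v ∈ univ.erase x, (((G A (T' v)).card : ℝ) - ((T' v).card : ℝ))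
      = ∑ v ∈ univ.erase x, (((G A (T v)).card : ℝ) - ((T v).card : ℝ)) :=
    Finset.sum_congr rfl (fun v hv => by rw [hne v (ne_of_mem_erase hv)])
  rw [hs, hx] at h
  have hd : Disjoint (T x) Z := Finset.disjoint_left.2 (fun a ha haZ => (mem_Nn.1 (hZ haZ)).1 ha)
  have c1 : ((T x ∪ Z).card : ℝ) = (T x).card + Z.card := by
    rw [card_union_of_disjoint hd]; push_cast; rfl
  have c2 : ((G A (T x ∪ Z)).card : ℝ) = rho A T x Z + (G A (T x)).card := by
    rw [G_union, union_comm, ← card_sdiff_add_card]; simp [rho, Rr]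
  linarith

theorem adm_T1 {A T : V → Finset V} (hA : Ori A) (hT : Adm A T) : Adm A (T1 A T) := by
  refine ⟨fun x => G_mono A (singleton_subset_iff.2 (mem_Uu.2 (Or.inl rfl))), fun y y' h1 h2 => ?_⟩
  obtain ⟨x, hx, hy'⟩ := mem_G'.1 h1
  obtain ⟨x2, hx2, hy⟩ := mem_G'.1 h2
  rcases mem_Uu.1 hx with rfl | hx
  · rcases mem_Uu.1 hx2 with rfl | hx2
    · exact G_single_antisymm hA hy' hy
    · exact absurd (mem_G'.2 ⟨x, mem_union_left _ (hT.1 x2 hy), hy'⟩) hx2
  · rcases mem_Uu.1 hx2 with rfl | hx2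
    · exact absurd (mem_G'.2 ⟨x2, mem_union_left _ (hT.1 x hy'), hy⟩) hx
    · exfalso
      have h3 : x2 ∉ T x ∪ Nn T x := fun h' => hx (mem_G'.2 ⟨x2, h', hy⟩)
      rw [mem_union, not_or, mem_Nn] at h3
      have h4 : x ∈ T x2 := by
        by_contra h4
        exact h3.2 ⟨h3.1, h4⟩
      exact hx2 (mem_G'.2 ⟨x, mem_union_left _ h4, hy'⟩)

lemma self_mem_T {A T : V → Finset V} (hT : Adm A T) (x : V) : x ∈ T x :=
  hT.1 x (mem_G_single.2 (Or.inl rfl))

theorem count_adm {A T : V → Finset V} (hT : Adm A T) :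
    2 * ∑ x, ((T x).card : ℝ) + ∑ x, ((Nn T x).card : ℝ)
      = (Fintype.card V : ℝ) ^ 2 + Fintype.card V := by
  rw [← sum_sum_one_add]
  have h1 : ∑ x, ((T x).card : ℝ) = ∑ x, ∑ z, if z ∈ T x then (1 : ℝ) else 0 :=
    Finset.sum_congr rfl (fun x _ => card_eq_sum_ite _)
  have h2 : ∑ x, ((T x).card : ℝ) = ∑ x, ∑ z, if x ∈ T z then (1 : ℝ) else 0 := by
    rw [h1, Finset.sum_comm]
  have h3 : ∑ x, ((Nn T x).card : ℝ) = ∑ x, ∑ z, if z ∈ Nn T x then (1 : ℝ) else 0 :=
    Finset.sum_congr rfl (fun x _ => card_eq_sum_ite _)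
  rw [two_mul, h3]
  nth_rewrite 1 [h1]
  rw [h2, ← Finset.sum_add_distrib, ← Finset.sum_add_distrib]
  refine Finset.sum_congr rfl (fun x _ => ?_)
  rw [← Finset.sum_add_distrib, ← Finset.sum_add_distrib]
  refine Finset.sum_congr rfl (fun z _ => ?_)
  by_cases e : x = z
  · subst e
    have := self_mem_T hT x
    simp [mem_Nn, this]
  · by_cases a : z ∈ T x
    · by_cases b : x ∈ T z
      · exact absurd (hT.2 _ _ a b) e
      · simp [mem_Nn, a, b, e]
    · by_cases b : x ∈ T z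
      · simp [mem_Nn, a, b, e]
      · simp [mem_Nn, a, b, e]

theorem sum_Uu {A T : V → Finset V} (hT : Adm A T) :
    ∑ y, ((Uu A T y).card : ℝ) + ∑ x, ((G A (T x)).card : ℝ) + ∑ x, rho A T x (Nn T x)
      = (Fintype.card V : ℝ) ^ 2 + Fintype.card V := by
  rw [← sum_sum_one_add]
  have h1 : ∑ y, ((Uu A T y).card : ℝ) = ∑ x, ∑ y, if x ∈ Uu A T y then (1 : ℝ) else 0 := by
    rw [Finset.sum_comm]
    exact Finset.sum_congr rfl (fun x _ => card_eq_sum_ite _)
  have h2 : ∑ x, ((G A (T x)).card : ℝ) + ∑ x, rho A T x (Nn T x)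
      = ∑ x, ∑ y, if y ∈ G A (T x ∪ Nn T x) then (1 : ℝ) else 0 := by
    rw [← Finset.sum_add_distrib]
    refine Finset.sum_congr rfl (fun x _ => ?_)
    rw [← card_eq_sum_ite, G_union, union_comm, ← card_sdiff_add_card]
    simp [rho, Rr, add_comm]
  rw [add_assoc, h1, h2, ← Finset.sum_add_distrib]
  refine Finset.sum_congr rfl (fun x _ => ?_)
  rw [← Finset.sum_add_distrib]
  refine Finset.sum_congr rfl (fun y _ => ?_)
  by_cases e : x = y
  · subst e
    have : x ∈ G A (T x ∪ Nn T x) := subset_G A _ (mem_union_left _ (self_mem_T hT x))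
    rw [if_pos (mem_Uu.2 (Or.inl rfl)), if_pos this, if_pos rfl]
  · by_cases a : y ∈ G A (T x ∪ Nn T x)
    · have : x ∉ Uu A T y := fun h => (mem_Uu.1 h).elim e (fun h' => h' a)
      rw [if_neg this, if_pos a, if_neg e]; ring
    · rw [if_pos (mem_Uu.2 (Or.inr a)), if_neg a, if_neg e]

theorem exists_not_closed [Nonempty V] {A : V → Finset V} {w : V → ℝ} (h : Cex A w)
    (U : V → Finset V) (hU : ∀ y, y ∈ U y) (hadm : Adm A (fun y => G A (U y))) :
    ∃ y, G A (U y) ≠ U y := by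
  classical
  by_contra hcon
  push Not at hcon
  obtain ⟨v0⟩ := (inferInstance : Nonempty V)
  obtain ⟨S, hS, hmin⟩ :=
    (univ.filter (fun S : Finset V => S.Nonempty ∧ G A S ⊆ S)).exists_min_image Finset.card
      ⟨U v0, mem_filter.2 ⟨mem_univ _, ⟨v0, hU v0⟩, (hcon v0).subset⟩⟩
  obtain ⟨⟨x, hx⟩, hcl⟩ := (mem_filter.1 hS).2
  have hsub : ∀ a ∈ S, S ⊆ U a := by
    intro a ha
    have h1 : G A (U a ∩ S) ⊆ U a ∩ S :=
      subset_inter ((G_mono A inter_subset_left).trans (hcon a).subset)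
        ((G_mono A inter_subset_right).trans hcl)
    have h2 := hmin (U a ∩ S) (mem_filter.2 ⟨mem_univ _, ⟨a, mem_inter.2 ⟨hU a, ha⟩⟩, h1⟩)
    have h3 : U a ∩ S = S := eq_of_subset_of_card_le inter_subset_right h2
    rw [← h3]; exact inter_subset_left
  have hne : (A x).Nonempty := by
    rw [Finset.nonempty_iff_ne_empty]
    intro he
    have hG : G A {x} = {x} := by
      ext y; rw [mem_G_single, he]; simp
    have := h.2 x
    rw [phi, hG, hG] at this
    linarith
  obtain ⟨y, hy⟩ := hne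
  have hyS : y ∈ S := hcl (mem_G.2 (Or.inr ⟨x, hx, hy⟩))
  have e : x = y := hadm.2 x y (subset_G A _ (hsub x hx hyS)) (subset_G A _ (hsub y hyS hx))
  subst e
  exact h.1.1 x hy

end Crest.Agent.R57K
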