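import Crest.Agent.R57.Basic

set_option autoImplicit false
set_option linter.unusedSectionVars false

namespace Crest.Agent.R57K

open Finset Crest.Agent.R57

variable {V : Type*} [Fintype V] [DecidableEq V]

/-- antisymmetric reflexive relation containing the graph -/
def Adm (A T : V → Finset V) : Prop :=
  (∀ x, G A {x} ⊆ T x) ∧ ∀ x y, y ∈ T x → x ∈ T y → x = y

/-- `T`-nonadjacent vertices -/
def Nn (T : V → Finset V) (x : V) : Finset V := univ.filter (fun z => z ∉ T x ∧ x ∉ T z)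

/-- new heads -/
def Rr (A T : V → Finset V) (x : V) (Z : Finset V) : Finset V := G A Z \ G A (T x)

def rho (A T : V → Finset V) (x : V) (Z : Finset V) : ℝ := ((Rr A T x Z).card : ℝ)

def oo (A T : V → Finset V) : ℝ := ∑ x, (((G A (T x)).card : ℝ) - ((T x).card : ℝ))

def Uu (A T : V → Finset V) (y : V) : Finset V :=
  insert y (univ.filter (fun x => y ∉ G A (T x ∪ Nn T x)))

def T1 (A T : V → Finset V) (y : V) : Finset V := G A (Uu A T y)

/-- `b z ·` is a lexicographically optimal base of `rho A T z` on `Nn T z` -/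
def IsLOB (A T : V → Finset V) (b : V → V → ℝ) : Prop :=
  ∀ z, (∀ Z ⊆ Nn T z, ∑ x ∈ Z, b z x ≤ rho A T z Z) ∧
    ∀ L ⊆ Nn T z, (∀ x ∈ L, ∀ x' ∈ Nn T z, b z x' ≤ b z x → x' ∈ L) →
      ∑ x ∈ L, b z x = rho A T z L

/-- `al x y` maximises `b · x` over the in-neighbours of `y` in `Nn T x`, ties broken by `e` -/
def IsAl (A T : V → Finset V) (b : V → V → ℝ) (e : V → ℕ) (al : V → V → V) : Prop :=
  ∀ x, ∀ y ∈ Rr A T x (Nn T x), al x y ∈ Nn T x ∧ y ∈ G A {al x y} ∧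
    ∀ z ∈ Nn T x, y ∈ G A {z} →
      b z x < b (al x y) x ∨ (b z x = b (al x y) x ∧ e (al x y) ≤ e z)

lemma mem_Nn {T : V → Finset V} {x z : V} : z ∈ Nn T x ↔ z ∉ T x ∧ x ∉ T z := by simp [Nn]

lemma Nn_symm {T : V → Finset V} {x z : V} : z ∈ Nn T x ↔ x ∈ Nn T z := by
  simp only [mem_Nn]; tauto

lemma mem_Rr {A T : V → Finset V} {x y : V} {Z : Finset V} :
    y ∈ Rr A T x Z ↔ y ∈ G A Z ∧ y ∉ G A (T x) := by simp [Rr]

lemma mem_G' {A : V → Finset V} {S : Finset V} {y : V} :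
    y ∈ G A S ↔ ∃ x ∈ S, y ∈ G A {x} := by
  simp only [mem_G_single, mem_G (S := S)]
  constructor
  · rintro (h | ⟨x, hx, h⟩)
    · exact ⟨y, h, Or.inl rfl⟩
    · exact ⟨x, hx, Or.inr h⟩
  · rintro ⟨x, hx, rfl | h⟩
    · exact Or.inl hx
    · exact Or.inr ⟨x, hx, h⟩

lemma mem_Uu {A T : V → Finset V} {x y : V} :
    x ∈ Uu A T y ↔ x = y ∨ y ∉ G A (T x ∪ Nn T x) := by simp [Uu]

/-- the basic non-membership lemma -/
lemma not_mem_T1 {A T : V → Finset V} (hT : Adm A T) {z y y2 : V} (h1 : y ∈ G A {z})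
    (h2 : y2 ∉ G A (T z)) : y2 ∉ T1 A T y := by
  intro h
  obtain ⟨u, hu, hy⟩ := mem_G'.1 h
  have hu2 : u ∉ T z := fun h' => h2 (mem_G'.2 ⟨u, h', hy⟩)
  rcases mem_Uu.1 hu with rfl | hu
  · exact hu2 (hT.1 z h1)
  · have : z ∉ T u ∪ Nn T u := fun h' => hu (mem_G'.2 ⟨z, h', h1⟩)
    rw [mem_union, not_or, mem_Nn] at this
    exact this.2 ⟨this.1, hu2⟩

end Crest.Agent.R57K
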