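import Crest.Agent.R57K.Defs

set_option autoImplicit false
set_option linter.unusedSectionVars false

namespace Crest.Agent.R57K

open Finset Crest.Agent.R57

variable {V : Type*} [Fintype V] [DecidableEq V]

theorem one_le_b {A T : V → Finset V} {b : V → V → ℝ} (hb : IsLOB A T b)
    (hall : ∀ x, ∀ Z ⊆ Nn T x, (Z.card : ℝ) ≤ rho A T x Z) (z x : V) (hx : x ∈ Nn T z) :
    1 ≤ b z x := by
  classical
  set L := (Nn T z).filter (fun x' => b z x' ≤ b z x) with hL
  have hLs : L ⊆ Nn T z := filter_subset _ _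
  have h1 := (hb z).2 L hLs (fun a ha a' ha' hle =>
    mem_filter.2 ⟨ha', hle.trans (mem_filter.1 ha).2⟩)
  have h2 : ∑ a ∈ L, b z a ≤ L.card • b z x :=
    sum_le_card_nsmul _ _ _ (fun a ha => (mem_filter.1 ha).2)
  have h3 := hall z L hLs
  have hxL : x ∈ L := mem_filter.2 ⟨hx, le_rfl⟩
  have hLc : (0 : ℝ) < L.card := by exact_mod_cast (card_pos.2 ⟨x, hxL⟩)
  rw [nsmul_eq_mul] at h2
  have : 1 * (L.card : ℝ) ≤ b z x * L.card := by nlinarith
  exact le_of_mul_le_mul_right this hLc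

theorem key1_row {A T : V → Finset V} {b : V → V → ℝ} (hb : IsLOB A T b)
    (hall : ∀ x, ∀ Z ⊆ Nn T x, (Z.card : ℝ) ≤ rho A T x Z) {e : V → ℕ} {al : V → V → V}
    (hal : IsAl A T b e al) (x : V) :
    ∑ z ∈ Nn T x, (b z x - 1) ≤ ∑ y ∈ Rr A T x (Nn T x), (b (al x y) x - 1) := by
  classical
  have hH : ∀ s : Finset (Nn T x), s.card ≤ (s.biUnion (fun z => Rr A T x {z.1})).card := by
    intro s
    have h1 := hall x (s.map (Function.Embedding.subtype _)) (by
      intro u hu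
      obtain ⟨z, _, rfl⟩ := mem_map.1 hu
      exact z.2)
    rw [card_map, rho] at h1
    have h2 : Rr A T x (s.map (Function.Embedding.subtype _))
        ⊆ s.biUnion (fun z => Rr A T x {z.1}) := by
      intro u hu
      obtain ⟨a, c⟩ := mem_Rr.1 hu
      obtain ⟨v, hv, hv2⟩ := mem_G'.1 a
      obtain ⟨z, hz, rfl⟩ := mem_map.1 hv
      exact mem_biUnion.2 ⟨z, hz, mem_Rr.2 ⟨hv2, c⟩⟩
    have h3 : s.card ≤ (Rr A T x (s.map (Function.Embedding.subtype _))).card := by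
      exact_mod_cast h1
    exact h3.trans (card_le_card h2)
  obtain ⟨f, hf, hf2⟩ := (Finset.all_card_le_biUnion_card_iff_exists_injective _).1 hH
  have hfR : ∀ z : Nn T x, f z ∈ Rr A T x (Nn T x) := fun z =>
    mem_Rr.2 ⟨mem_G'.2 ⟨z.1, z.2, (mem_Rr.1 (hf2 z)).1⟩, (mem_Rr.1 (hf2 z)).2⟩
  calc ∑ z ∈ Nn T x, (b z x - 1) = ∑ z : Nn T x, (b z.1 x - 1) :=
        (Finset.sum_coe_sort (Nn T x) (fun z => b z x - 1)).symm
    _ ≤ ∑ z : Nn T x, (b (al x (f z)) x - 1) := by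
        refine sum_le_sum (fun z _ => ?_)
        rcases (hal x (f z) (hfR z)).2.2 z.1 z.2 (mem_Rr.1 (hf2 z)).1 with h | h
        · linarith
        · linarith [h.1]
    _ = ∑ y ∈ univ.image f, (b (al x y) x - 1) :=
        (Finset.sum_image (f := fun y => b (al x y) x - 1) (fun a _ c _ h => hf h)).symm
    _ ≤ _ := by
        refine sum_le_sum_of_subset_of_nonneg ?_ (fun y hy _ => ?_)
        · intro y hy
          obtain ⟨z, _, rfl⟩ := mem_image.1 hy
          exact hfR z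
        · have := one_le_b hb hall (al x y) x (Nn_symm.1 (hal x y hy).1)
          linarith

theorem key1 {A T : V → Finset V} {b : V → V → ℝ} (hb : IsLOB A T b)
    (hall : ∀ x, ∀ Z ⊆ Nn T x, (Z.card : ℝ) ≤ rho A T x Z) {e : V → ℕ} {al : V → V → V}
    (hal : IsAl A T b e al) :
    2 * ∑ x, rho A T x (Nn T x) - ∑ x, ((Nn T x).card : ℝ)
      ≤ ∑ x, ∑ y ∈ Rr A T x (Nn T x), b (al x y) x := by
  have h1 := sum_le_sum (fun x (_ : x ∈ (univ : Finset V)) => key1_row hb hall hal x)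
  have h2 : ∑ x, ∑ z ∈ Nn T x, b z x = ∑ z, ∑ x ∈ Nn T z, b z x :=
    Finset.sum_comm' (fun x z => by simp only [mem_univ, true_and, and_true]; exact Nn_symm)
  have h3 : ∑ z, ∑ x ∈ Nn T z, b z x = ∑ z, rho A T z (Nn T z) :=
    sum_congr rfl (fun z _ => (hb z).2 _ Subset.rfl (fun _ _ _ h _ => h))
  simp only [sum_sub_distrib, sum_const, nsmul_eq_mul, mul_one] at h1
  simp only [rho] at h3 ⊢
  linarith

end Crest.Agent.R57K
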