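import Crest.Agent.R57K.Defs

set_option autoImplicit false
set_option linter.unusedSectionVars false

namespace Crest.Agent.R57K

open Finset Crest.Agent.R57

variable {V : Type*} [Fintype V] [DecidableEq V]

lemma cross {A T : V → Finset V} {x z y y2 : V} (h1 : y ∈ G A {z}) (h2 : y ∉ G A (T x))
    (h3 : y2 ∈ G A {x}) (h4 : y2 ∉ G A (T z)) : x ∈ Nn T z :=
  mem_Nn.2 ⟨fun h => h4 (mem_G'.2 ⟨x, h, h3⟩), fun h => h2 (mem_G'.2 ⟨z, h, h1⟩)⟩

theorem key2_col {A T : V → Finset V} (hT : Adm A T) {b : V → V → ℝ} (hb : IsLOB A T b)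
    {e : V → ℕ} (he : Function.Injective e) {al : V → V → V} (hal : IsAl A T b e al) (y : V) :
    ∑ x ∈ univ.filter (fun x => y ∈ Rr A T x (Nn T x)), b (al x y) x
      ≤ ((Nn (T1 A T) y).card : ℝ) := by
  classical
  set X : Finset V := univ.filter (fun x => y ∈ Rr A T x (Nn T x)) with hX
  have hXm : ∀ x, x ∈ X → y ∈ Rr A T x (Nn T x) := fun x hx => (mem_filter.1 hx).2
  let κ : V → V × ℝ := fun x => (al x y, b (al x y) x)
  let Z : V × ℝ → Finset V := fun k => X.filter (fun x => κ x = k)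
  let L : V × ℝ → Finset V := fun k => (Nn T k.1).filter (fun x => b k.1 x < k.2)
  let C : V × ℝ → Finset V := fun k => Rr A T k.1 (Z k) \ G A (L k)
  have hZ : ∀ k x, x ∈ Z k → x ∈ X ∧ al x y = k.1 ∧ b k.1 x = k.2 := by
    intro k x hx
    obtain ⟨h1, h2⟩ := mem_filter.1 hx
    have e1 : al x y = k.1 := congrArg Prod.fst h2
    have e2 : b (al x y) x = k.2 := congrArg Prod.snd h2
    exact ⟨h1, e1, e1 ▸ e2⟩
  have hZN : ∀ k, Z k ⊆ Nn T k.1 := by
    intro k x hx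
    obtain ⟨h1, h2, _⟩ := hZ k x hx
    have := (hal x y (hXm x h1)).1
    rw [h2] at this
    exact Nn_symm.1 this
  have step : ∀ k, ∑ x ∈ Z k, b (al x y) x ≤ ((C k).card : ℝ) := by
    intro k
    have hLN : L k ⊆ Nn T k.1 := filter_subset _ _
    have hd : Disjoint (Z k) (L k) := by
      rw [Finset.disjoint_left]
      intro x hx hl
      have := (mem_filter.1 hl).2
      rw [(hZ k x hx).2.2] at this
      exact lt_irrefl _ this
    have h1 := (hb k.1).1 (Z k ∪ L k) (union_subset (hZN k) hLN)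
    have h2 := (hb k.1).2 (L k) hLN (fun x hx x' hx' hle =>
      mem_filter.2 ⟨hx', lt_of_le_of_lt hle (mem_filter.1 hx).2⟩)
    rw [sum_union hd, h2] at h1
    have h3 : Rr A T k.1 (Z k ∪ L k) ⊆ C k ∪ Rr A T k.1 (L k) := by
      intro u hu
      obtain ⟨hu1, hu2⟩ := mem_Rr.1 hu
      rw [G_union, mem_union] at hu1
      by_cases hl : u ∈ G A (L k)
      · exact mem_union_right _ (mem_Rr.2 ⟨hl, hu2⟩)
      · exact mem_union_left _ (mem_sdiff.2 ⟨mem_Rr.2 ⟨hu1.resolve_right hl, hu2⟩, hl⟩)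
    have h4 : (Rr A T k.1 (Z k ∪ L k)).card ≤ (C k).card + (Rr A T k.1 (L k)).card :=
      (card_le_card h3).trans (card_union_le _ _)
    have h5 : rho A T k.1 (Z k ∪ L k) ≤ ((C k).card : ℝ) + rho A T k.1 (L k) := by
      simp only [rho]; exact_mod_cast h4
    have h6 : ∑ x ∈ Z k, b (al x y) x = ∑ x ∈ Z k, b k.1 x :=
      sum_congr rfl (fun x hx => by rw [(hZ k x hx).2.1])
    linarith
  have hC : ∀ k u, u ∈ C k → ∃ x, x ∈ Z k ∧ u ∈ G A {x} ∧ u ∉ G A (T k.1) ∧ u ∉ G A (L k) ∧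
      y ∈ G A {k.1} ∧ y ∉ G A (T x) := by
    intro k u hu
    obtain ⟨h1, h2⟩ := mem_sdiff.1 hu
    obtain ⟨h3, h4⟩ := mem_Rr.1 h1
    obtain ⟨x, hx, h5⟩ := mem_G'.1 h3
    obtain ⟨g1, g2, _⟩ := hZ k x hx
    have := (hal x y (hXm x g1)).2.1
    rw [g2] at this
    exact ⟨x, hx, h5, h4, h2, this, (mem_Rr.1 (hXm x g1)).2⟩
  have hsub : ∀ k, C k ⊆ Nn (T1 A T) y := by
    intro k u hu
    obtain ⟨x, _, h1, h2, _, h4, h5⟩ := hC k u hu
    exact mem_Nn.2 ⟨not_mem_T1 hT h4 h2, not_mem_T1 hT h1 h5⟩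
  have half : ∀ k k' u, u ∈ C k → u ∈ C k' →
      k.2 < k'.2 ∨ (k.2 ≤ k'.2 ∧ (k'.2 ≤ k.2 → e k'.1 ≤ e k.1)) := by
    intro k k' u hu hu'
    obtain ⟨x, hx, h1, h2, h3, h4, h5⟩ := hC k u hu
    obtain ⟨x', hx', g1, g2, g3, g4, g5⟩ := hC k' u hu'
    have hN : x' ∈ Nn T k.1 := cross h4 g5 g1 h2
    have hge : k.2 ≤ b k.1 x' := by
      by_contra hlt
      push Not at hlt
      exact h3 (mem_G'.2 ⟨x', mem_filter.2 ⟨hN, hlt⟩, g1⟩)
    obtain ⟨m1, m2, m3⟩ := hZ k' x' hx'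
    have := (hal x' y (hXm x' m1)).2.2 k.1 (Nn_symm.1 hN) h4
    rw [m2, m3] at this
    rcases this with h | ⟨h, h'⟩
    · exact Or.inl (lt_of_le_of_lt hge h)
    · exact Or.inr ⟨h ▸ hge, fun _ => h'⟩
  have hdisj : ∀ k ∈ X.image κ, ∀ k' ∈ X.image κ, k ≠ k' → Disjoint (C k) (C k') := by
    intro k _ k' _ hne
    rw [Finset.disjoint_left]
    intro u hu hu'
    apply hne
    rcases half k k' u hu hu' with a | ⟨a, a'⟩ <;> rcases half k' k u hu' hu with c | ⟨c, c'⟩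
    · exact absurd a (not_lt.2 c.le)
    · exact absurd a (not_lt.2 c)
    · exact absurd c (not_lt.2 a)
    · exact Prod.ext (he (le_antisymm (c' a) (a' c))) (le_antisymm a c)
  have e1 : ∑ x ∈ X, b (al x y) x = ∑ k ∈ X.image κ, ∑ x ∈ Z k, b (al x y) x :=
    (Finset.sum_fiberwise_of_maps_to (fun x hx => mem_image_of_mem κ hx) _).symm
  have e2 : ((X.image κ).biUnion C).card = ∑ k ∈ X.image κ, (C k).card := card_biUnion hdisj
  have e3 : ((X.image κ).biUnion C).card ≤ (Nn (T1 A T) y).card :=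
    card_le_card (biUnion_subset.2 (fun k _ => hsub k))
  rw [e1]
  calc ∑ k ∈ X.image κ, ∑ x ∈ Z k, b (al x y) x ≤ ∑ k ∈ X.image κ, ((C k).card : ℝ) :=
        sum_le_sum (fun k _ => step k)
    _ ≤ _ := by rw [e2] at e3; exact_mod_cast e3

theorem key2 {A T : V → Finset V} (hT : Adm A T) {b : V → V → ℝ} (hb : IsLOB A T b)
    {e : V → ℕ} (he : Function.Injective e) {al : V → V → V} (hal : IsAl A T b e al) :
    ∑ x, ∑ y ∈ Rr A T x (Nn T x), b (al x y) x ≤ ∑ y, ((Nn (T1 A T) y).card : ℝ) := by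
  have : ∑ x, ∑ y ∈ Rr A T x (Nn T x), b (al x y) x
      = ∑ y, ∑ x ∈ univ.filter (fun x => y ∈ Rr A T x (Nn T x)), b (al x y) x :=
    Finset.sum_comm' (fun x y => by simp)
  rw [this]
  exact sum_le_sum (fun y _ => key2_col hT hb he hal y)

end Crest.Agent.R57K
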