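import Crest.Agent.R57K.Defs

set_option autoImplicit false
set_option linter.unusedSectionVars false

namespace Crest.Agent.R57K

open Finset Crest.Agent.R57

variable {V : Type*} [Fintype V] [DecidableEq V]

/-- lexicographically optimal base of a submodular function -/
theorem lob (X : Finset V) : ∀ (ρ : Finset V → ℝ), ρ ∅ = 0 →
    (∀ S T, ρ (S ∪ T) + ρ (S ∩ T) ≤ ρ S + ρ T) →
    ∃ b : V → ℝ, (∀ Z ⊆ X, ∑ x ∈ Z, b x ≤ ρ Z) ∧
      ∀ L ⊆ X, (∀ x ∈ L, ∀ x' ∈ X, b x' ≤ b x → x' ∈ L) → ∑ x ∈ L, b x = ρ L := by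
  induction X using Finset.strongInduction with
  | H X ih =>
  intro ρ h0 hsub
  rcases X.eq_empty_or_nonempty with rfl | hX
  · refine ⟨fun _ => 0, fun Z hZ => ?_, fun L hL _ => ?_⟩
    · rw [subset_empty.1 hZ]; simp [h0]
    · rw [subset_empty.1 hL]; simp [h0]
  obtain ⟨Z0, hZ0, hmin⟩ := (X.powerset.filter (fun Z => Z.Nonempty)).exists_min_image
    (fun Z => ρ Z / (Z.card : ℝ)) ⟨X, by simp [hX]⟩
  rw [mem_filter, mem_powerset] at hZ0
  obtain ⟨hZ0X, hZ0ne⟩ := hZ0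
  set lam := ρ Z0 / (Z0.card : ℝ) with hlam
  have hc0 : (0 : ℝ) < Z0.card := by exact_mod_cast hZ0ne.card_pos
  have hZ0v : ρ Z0 = lam * Z0.card := by rw [hlam]; field_simp
  have hlow : ∀ Z ⊆ X, lam * Z.card ≤ ρ Z := by
    intro Z hZ
    rcases Z.eq_empty_or_nonempty with rfl | hne
    · simp [h0]
    · have h1 := hmin Z (by rw [mem_filter, mem_powerset]; exact ⟨hZ, hne⟩)
      have hc : (0 : ℝ) < Z.card := by exact_mod_cast hne.card_pos
      exact (le_div_iff₀ hc).1 h1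
  have hss : X \ Z0 ⊂ X := sdiff_ssubset hZ0X hZ0ne
  obtain ⟨b2, hb1, hb2⟩ := ih (X \ Z0) hss (fun S => ρ (S ∪ Z0) - ρ Z0) (by simp) (by
    intro S T
    have h := hsub (S ∪ Z0) (T ∪ Z0)
    have e1 : (S ∪ Z0) ∪ (T ∪ Z0) = (S ∪ T) ∪ Z0 := by
      ext y; simp only [mem_union]; tauto
    have e2 : (S ∪ Z0) ∩ (T ∪ Z0) = (S ∩ T) ∪ Z0 := by
      ext y; simp only [mem_union, mem_inter]; tauto
    rw [e1, e2] at h
    linarith)
  have hge : ∀ x0 ∈ X \ Z0, lam ≤ b2 x0 := by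
    intro x0 hx0
    set L := (X \ Z0).filter (fun x => b2 x ≤ b2 x0) with hL
    have hLs : L ⊆ X \ Z0 := filter_subset _ _
    have h1 := hb2 L hLs (by
      intro x hx x' hx' hle
      exact mem_filter.2 ⟨hx', hle.trans (mem_filter.1 hx).2⟩)
    have hd : Disjoint L Z0 := disjoint_of_subset_left hLs sdiff_disjoint
    have h2 := hlow (L ∪ Z0) (union_subset (hLs.trans sdiff_subset) hZ0X)
    rw [card_union_of_disjoint hd] at h2
    push_cast at h2
    have h3 : ∑ x ∈ L, b2 x ≤ L.card * b2 x0 := by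
      have := Finset.sum_le_card_nsmul L b2 (b2 x0) (fun x hx => (mem_filter.1 hx).2)
      simpa [nsmul_eq_mul] using this
    have hc : (0 : ℝ) < L.card := by
      have : L.Nonempty := ⟨x0, mem_filter.2 ⟨hx0, le_rfl⟩⟩
      exact_mod_cast this.card_pos
    have h4 : L.card * lam ≤ L.card * b2 x0 := by
      nlinarith
    exact le_of_mul_le_mul_left h4 hc
  have hsum : ∀ Z : Finset V, ∑ x ∈ Z, (if x ∈ Z0 then lam else b2 x)
      = lam * (Z ∩ Z0).card + ∑ x ∈ Z \ Z0, b2 x := by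
    intro Z
    rw [← Finset.sum_inter_add_sum_sdiff Z Z0]
    congr 1
    · rw [Finset.sum_congr rfl (fun x hx => if_pos (mem_inter.1 hx).2)]
      simp [mul_comm]
    · exact Finset.sum_congr rfl (fun x hx => if_neg (mem_sdiff.1 hx).2)
  refine ⟨fun x => if x ∈ Z0 then lam else b2 x, fun Z hZ => ?_, fun L hL hdown => ?_⟩
  · rw [hsum]
    have h1 := hb1 (Z \ Z0) (sdiff_subset_sdiff hZ Subset.rfl)
    simp only [sdiff_union_self_eq_union] at h1
    have h2 := hlow (Z ∩ Z0) (inter_subset_left.trans hZ)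
    have h3 := hsub Z Z0
    linarith
  · rcases L.eq_empty_or_nonempty with rfl | ⟨x0, hx0⟩
    · simp [h0]
    have hZ0L : Z0 ⊆ L := by
      intro z hz
      refine hdown x0 hx0 z (hZ0X hz) ?_
      simp only [if_pos hz]
      split_ifs with h
      · exact le_rfl
      · exact hge x0 (mem_sdiff.2 ⟨hL hx0, h⟩)
    rw [hsum]
    have h1 := hb2 (L \ Z0) (sdiff_subset_sdiff hL Subset.rfl) (by
      intro x hx x' hx' hle
      refine mem_sdiff.2 ⟨hdown x (mem_sdiff.1 hx).1 x' (mem_sdiff.1 hx').1 ?_, (mem_sdiff.1 hx').2⟩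
      simp only [if_neg (mem_sdiff.1 hx).2, if_neg (mem_sdiff.1 hx').2]
      exact hle)
    simp only [sdiff_union_self_eq_union] at h1
    rw [union_eq_left.2 hZ0L] at h1
    rw [inter_eq_right.2 hZ0L]
    linarith

theorem rho_submod (A T : V → Finset V) (x : V) (S S' : Finset V) :
    rho A T x (S ∪ S') + rho A T x (S ∩ S') ≤ rho A T x S + rho A T x S' := by
  have e1 : Rr A T x (S ∪ S') = Rr A T x S ∪ Rr A T x S' := by
    ext y; simp only [mem_Rr, G_union, mem_union]; tauto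
  have e2 : Rr A T x (S ∩ S') ⊆ Rr A T x S ∩ Rr A T x S' := by
    intro y hy
    rw [mem_Rr] at hy
    exact mem_inter.2 ⟨mem_Rr.2 ⟨G_mono A inter_subset_left hy.1, hy.2⟩,
      mem_Rr.2 ⟨G_mono A inter_subset_right hy.1, hy.2⟩⟩
  have h1 := card_union_add_card_inter (Rr A T x S) (Rr A T x S')
  have h2 := card_le_card e2
  unfold rho
  rw [e1]
  have : (Rr A T x S ∪ Rr A T x S').card + (Rr A T x (S ∩ S')).card
      ≤ (Rr A T x S).card + (Rr A T x S').card := by omega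
  exact_mod_cast this

theorem exists_isLOB (A T : V → Finset V) : ∃ b, IsLOB A T b := by
  have h : ∀ z, ∃ b : V → ℝ, (∀ Z ⊆ Nn T z, ∑ x ∈ Z, b x ≤ rho A T z Z) ∧
      ∀ L ⊆ Nn T z, (∀ x ∈ L, ∀ x' ∈ Nn T z, b x' ≤ b x → x' ∈ L) →
        ∑ x ∈ L, b x = rho A T z L := fun z =>
    lob (Nn T z) (rho A T z) (by simp [rho, Rr, G]) (rho_submod A T z)
  choose b hb using h
  exact ⟨b, hb⟩

theorem exists_isAl (A T : V → Finset V) (b : V → V → ℝ) (e : V → ℕ) :
    ∃ al, IsAl A T b e al := by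
  have h : ∀ x y, ∃ a : V, y ∈ Rr A T x (Nn T x) → (a ∈ Nn T x ∧ y ∈ G A {a} ∧
      ∀ z ∈ Nn T x, y ∈ G A {z} → b z x < b a x ∨ (b z x = b a x ∧ e a ≤ e z)) := by
    intro x y
    by_cases hy : y ∈ Rr A T x (Nn T x)
    · obtain ⟨z0, hz0, hz0'⟩ := mem_G'.1 (mem_Rr.1 hy).1
      set C := (Nn T x).filter (fun z => y ∈ G A {z}) with hC
      obtain ⟨a1, ha1, hmax⟩ := C.exists_max_image (fun z => b z x) ⟨z0, mem_filter.2 ⟨hz0, hz0'⟩⟩
      obtain ⟨a, ha, hmin⟩ := (C.filter (fun z => b z x = b a1 x)).exists_min_image e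
        ⟨a1, mem_filter.2 ⟨ha1, rfl⟩⟩
      have haC := mem_filter.1 (mem_filter.1 ha).1
      have hab := (mem_filter.1 ha).2
      refine ⟨a, fun _ => ⟨haC.1, haC.2, fun z hz hyz => ?_⟩⟩
      have hzC : z ∈ C := mem_filter.2 ⟨hz, hyz⟩
      rcases (hmax z hzC).lt_or_eq with h | h
      · left; rw [hab]; exact h
      · right; exact ⟨by rw [hab]; exact h, hmin z (mem_filter.2 ⟨hzC, h⟩)⟩
    · exact ⟨x, fun h => absurd h hy⟩
  choose al hal using h
  exact ⟨al, fun x y hy => hal x y hy⟩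

end Crest.Agent.R57K
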