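import Crest.Agent.R57K.LOB
import Crest.Agent.R57K.Count
import Crest.Agent.R57K.Key1
import Crest.Agent.R57K.Key2

set_option autoImplicit false
set_option linter.unusedSectionVars false

namespace Crest.Agent.R57K

open Finset Crest.Agent.R57

variable {V : Type*} [Fintype V] [DecidableEq V]

theorem not_cex [Nonempty V] (A0 : V → Finset V) : ¬ Cex A0 (fun _ => (1 : ℝ)) := by
  intro h0
  obtain ⟨A, hA⟩ := exists_ext h0
  have hO : Ori A := hA.1.1
  have hw : ∀ v : V, (0 : ℝ) ≤ (fun _ => (1 : ℝ)) v := fun _ => zero_le_one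
  obtain ⟨T, hT, hmin⟩ := exists_min_adm hO
  have hall : ∀ x, ∀ Z ⊆ Nn T x, (Z.card : ℝ) ≤ rho A T x Z :=
    fun x Z hZ => hall_of_min hT hmin x Z hZ
  obtain ⟨b, hb⟩ := exists_isLOB A T
  let e : V → ℕ := fun v => (Fintype.equivFin V v : ℕ)
  have he : Function.Injective e := fun u v h => (Fintype.equivFin V).injective (Fin.ext h)
  obtain ⟨al, hal⟩ := exists_isAl A T b e
  have k1 := key1 hb hall hal
  have k2 := key2 hT hb he hal
  have h1 : Adm A (T1 A T) := adm_T1 hO hT
  have c0 := count_adm hT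
  have c1 := count_adm h1
  have cU := sum_Uu hT
  have hm := hmin _ h1
  obtain ⟨y0, hy0⟩ := exists_not_closed hA.1 (Uu A T) (fun y => mem_Uu.2 (Or.inl rfl)) h1
  have c : ∀ S : Finset V, W (fun _ => (1 : ℝ)) S = S.card := fun S => by simp [W]
  have hpos : 0 < ∑ y, phi A (fun _ => (1 : ℝ)) (Uu A T y) :=
    Finset.sum_pos' (fun y _ => hA.phi_nonneg hw _) ⟨y0, mem_univ _, hA.phi_pos hw _ hy0⟩
  simp only [phi, c, Finset.sum_sub_distrib, ← Finset.mul_sum] at hpos
  simp only [oo, Finset.sum_sub_distrib] at hm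
  simp only [T1] at hm c1 k2
  linarith

end Crest.Agent.R57K
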